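import Mathlib
import Vale.Agent.P084.Main

/-!
Every nonzero finite-dimensional real normed space has the Mazur-Ulam property.
-/

namespace Vale.Agent.Results.P084.TingleyFiniteDim

/-- Every surjective isometry from the unit sphere of a nonzero finite-dimensional real normed
space onto the unit sphere of any real normed space extends to a linear isometry of the spaces. -/
theorem result {X Y : Type*} [NormedAddCommGroup X] [NormedSpace ℝ X]
    [FiniteDimensional ℝ X] [Nontrivial X] [NormedAddCommGroup Y] [NormedSpace ℝ Y]
    (f : Metric.sphere (0 : X) 1 → Metric.sphere (0 : Y) 1) (hsurj : Function.Surjective f)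
    (hiso : ∀ a b, ‖(f a : Y) - f b‖ = ‖(a : X) - b‖) :
    ∃ T : X ≃ₗᵢ[ℝ] Y, ∀ a : Metric.sphere (0 : X) 1, T a = f a :=
  Vale.Agent.P084.tingley_finiteDim f hsurj hiso

end Vale.Agent.Results.P084.TingleyFiniteDim
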