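import Mathlib
import Vale.Agent.P084.Inf.Main

/-!
Tingley's problem has an affirmative answer for uniformly convex and uniformly smooth spaces of
arbitrary dimension.
-/

namespace Vale.Agent.Results.P084.TingleyUniform

/-- If `X` is a nonzero uniformly convex and uniformly smooth real normed space, then every
surjective isometry from its unit sphere onto the unit sphere of any real normed space extends to
a linear isometry of the spaces. -/
theorem result {X Y : Type*} [NormedAddCommGroup X] [NormedSpace ℝ X]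
    [UniformConvexSpace X] [Nontrivial X] [NormedAddCommGroup Y] [NormedSpace ℝ Y]
    (hsmooth : ∀ ε : ℝ, 0 < ε → ∃ δ, 0 < δ ∧ ∀ x h : X, ‖x‖ = 1 → ‖h‖ ≤ δ →
      ‖x + h‖ + ‖x - h‖ ≤ 2 + ε * ‖h‖)
    (f : Metric.sphere (0 : X) 1 → Metric.sphere (0 : Y) 1) (hsurj : Function.Surjective f)
    (hiso : ∀ a b, ‖(f a : Y) - f b‖ = ‖(a : X) - b‖) :
    ∃ T : X ≃ₗᵢ[ℝ] Y, ∀ a : Metric.sphere (0 : X) 1, T a = f a :=
  Vale.Agent.P084.Inf.tingley_uniform hsmooth f hsurj hiso

end Vale.Agent.Results.P084.TingleyUniform
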